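import Mathlib

/-!
# P300 / chapter D : the topological end of the disproof (helper527)

`not_compact_hull` : a compact curve in `X` (a finite or infinite family of maps `α i : A i → X` from
simply connected spaces) whose preimages in suitable (finite) coverings `Z → X` contain arbitrarily long
chains; then in the simply connected covering `Y → X` the hull of a point is not compact, for every
set of functions on `Y` which are constant on the lifts of the `α i`.
-/

set_option autoImplicit false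

namespace Vale.Agent.P300.H527

open Set Topology

universe u v w

section defs

variable {ι : Type u} {A : ι → Type v} [∀ i, TopologicalSpace (A i)] {X : Type w}
  [TopologicalSpace X] {Z : Type*} [TopologicalSpace Z]

/-- the chain class of `z₀` : what is reached by lifts of the `α i` -/
inductive Chn (α : ∀ i, C(A i, X)) (q : Z → X) (z₀ : Z) : Z → Prop
  | base : Chn α q z₀ z₀
  | step (i : ι) (L : C(A i, Z)) (hL : q ∘ L = α i) (a b : A i) :
      Chn α q z₀ (L a) → Chn α q z₀ (L b)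

/-- the hull of a set with respect to a set of functions -/
def hull (O : Set (Z → ℂ)) (K : Set Z) : Set Z := {z | ∀ g ∈ O, ∀ C : ℝ, (∀ k ∈ K, ‖g k‖ ≤ C) → ‖g z‖ ≤ C}

/-- a function which is constant on the lifts of the `α i` is constant on the chain classes -/
theorem Chn.const {α : ∀ i, C(A i, X)} {q : Z → X} {z₀ z : Z} (h : Chn α q z₀ z) {g : Z → ℂ}
    (hg : ∀ i (L : C(A i, Z)), q ∘ L = α i → ∀ a b, g (L a) = g (L b)) : g z = g z₀ := by
  induction h with
  | base => rfl
  | step i L hL a b _ ih => rw [← ih]; exact hg i L hL b a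

theorem Chn.mem_hull {α : ∀ i, C(A i, X)} {q : Z → X} {z₀ z : Z} (h : Chn α q z₀ z)
    {O : Set (Z → ℂ)}
    (hO : ∀ g ∈ O, ∀ i (L : C(A i, Z)), q ∘ L = α i → ∀ a b, g (L a) = g (L b)) :
    z ∈ hull O {z₀} := by
  intro g hg C hC
  rw [h.const (hO g hg)]
  exact hC z₀ rfl

end defs

section main

variable {ι : Type u} {A : ι → Type v} [∀ i, TopologicalSpace (A i)]
  [∀ i, SimplyConnectedSpace (A i)] [∀ i, LocallyPathConnectedSpace (A i)]
  {X : Type w} [TopologicalSpace X] {Y : Type*} [TopologicalSpace Y]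
  {Z : Type*} [TopologicalSpace Z]

/-- chains lift -/
theorem Chn.lift {α : ∀ i, C(A i, X)} {p : Y → X} (hp : IsCoveringMap p) {q : Z → X}
    (hq : IsCoveringMap q) (φ : C(Y, Z)) (hφ : q ∘ φ = p) {y₀ : Y} {z : Z}
    (h : Chn α q (φ y₀) z) : ∃ y, Chn α p y₀ y ∧ φ y = z := by
  induction h with
  | base => exact ⟨y₀, Chn.base, rfl⟩
  | step i L hL a b _ ih =>
    obtain ⟨y, hy, hyz⟩ := ih
    have h1 : p y = α i a := by
      have h2 := congrFun hφ y
      simp only [Function.comp_apply] at h2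
      rw [← h2, hyz]
      exact congrFun hL a
    obtain ⟨F, ⟨hF, hF'⟩, -⟩ := hp.existsUnique_continuousMap_lifts (α i) a y h1
    have h3 : (φ ∘ F : A i → Z) = L := by
      refine hq.eq_of_comp_eq (φ.continuous.comp F.continuous) L.continuous ?_ a ?_
      · rw [← Function.comp_assoc, hφ, hF', hL]
      · simp only [Function.comp_apply, hF, hyz]
    refine ⟨F b, Chn.step i F hF' a b (by rw [hF]; exact hy), ?_⟩
    exact congrFun h3 b

variable [SimplyConnectedSpace Y] [LocallyPathConnectedSpace Y]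

/-- the chain class upstairs is at least as large as every chain class in a covering -/
theorem exists_finset {α : ∀ i, C(A i, X)} {p : Y → X} (hp : IsCoveringMap p) {q : Z → X}
    (hq : IsCoveringMap q) {y₀ : Y} {z₀ : Z} (h0 : p y₀ = q z₀) (D : Set X) (S : Finset Z)
    (hS : ∀ z ∈ S, Chn α q z₀ z ∧ q z ∈ D) :
    ∃ S' : Finset Y, S'.card = S.card ∧ ∀ y ∈ S', Chn α p y₀ y ∧ p y ∈ D := by
  classical
  obtain ⟨φ, ⟨hφ0, hφ⟩, -⟩ :=
    hq.existsUnique_continuousMap_lifts ⟨p, hp.continuous⟩ y₀ z₀ h0.symm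
  have hφ' : q ∘ φ = p := hφ
  have h1 : ∀ z : S, ∃ y, Chn α p y₀ y ∧ φ y = z := by
    rintro ⟨z, hz⟩
    have h2 := (hS z hz).1
    rw [← hφ0] at h2
    exact h2.lift hp hq φ hφ'
  choose f hf1 hf2 using h1
  have hinj : Function.Injective f := by
    intro z z' h
    have h3 := hf2 z
    rw [h, hf2 z'] at h3
    exact (Subtype.ext h3).symm
  refine ⟨Finset.univ.image f, ?_, ?_⟩
  · rw [Finset.card_image_of_injective _ hinj, Finset.card_univ, Fintype.card_coe]
  · intro y hy
    obtain ⟨z, -, rfl⟩ := Finset.mem_image.1 hy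
    refine ⟨hf1 z, ?_⟩
    have h4 := congrFun hφ' (f z)
    simp only [Function.comp_apply] at h4
    rw [← h4, hf2 z]
    exact (hS z z.2).2

/-- **the topological end** -/
theorem not_compact_hull [T1Space X] {α : ∀ i, C(A i, X)} {p : Y → X} (hp : IsCoveringMap p)
    (hps : Function.Surjective p) {D : Set X} (hD : D.Finite)
    (tower : ∀ N : ℕ, ∃ (Z : Type w) (_ : TopologicalSpace Z) (q : Z → X) (_ : IsCoveringMap q)
      (z₀ : Z) (S : Finset Z), q z₀ ∈ D ∧ N ≤ S.card ∧ ∀ z ∈ S, Chn α q z₀ z ∧ q z ∈ D) :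
    ∃ y₀ : Y, p y₀ ∈ D ∧ ∀ O : Set (Y → ℂ),
      (∀ g ∈ O, ∀ i (L : C(A i, Y)), p ∘ L = α i → ∀ a b, g (L a) = g (L b)) →
      ¬ IsCompact (hull O {y₀}) := by
  classical
  -- a common base point
  have h1 : ∃ x₀ ∈ D, ∀ N : ℕ, ∃ (Z : Type w) (_ : TopologicalSpace Z) (q : Z → X)
      (_ : IsCoveringMap q) (z₀ : Z) (S : Finset Z), q z₀ = x₀ ∧ N ≤ S.card ∧
      ∀ z ∈ S, Chn α q z₀ z ∧ q z ∈ D := by
    by_contra hc
    push Not at hc
    choose! n hn using hc
    obtain ⟨M, hM⟩ := (hD.image n).bddAbove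
    obtain ⟨Z, tZ, q, hq, z₀, S, h2, h3, h4⟩ := tower M
    obtain ⟨z, hz, hz'⟩ := hn (q z₀) h2 Z tZ q hq z₀ S rfl
      ((hM ⟨_, h2, rfl⟩).trans h3)
    exact hz' (h4 z hz).1 (h4 z hz).2
  obtain ⟨x₀, hx₀, h2⟩ := h1
  obtain ⟨y₀, hy₀⟩ := hps x₀
  refine ⟨y₀, by rw [hy₀]; exact hx₀, fun O hO hK => ?_⟩
  -- the nodes in the hull are finite in number
  have hclosed : IsClosed (p ⁻¹' D) := hD.isClosed.preimage hp.continuous
  have hfin : (hull O {y₀} ∩ p ⁻¹' D).Finite := by
    have hK' : IsCompact (hull O {y₀} ∩ p ⁻¹' D) := hK.inter_right hclosed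
    refine hK'.finite ?_
    rw [isDiscrete_iff_forall_mem_exists_isOpen]
    rintro y ⟨hyH, hy⟩
    obtain ⟨U, hU, hyU, hUinj⟩ := hp.isLocalHomeomorph.isLocallyInjective y
    have h3 : IsOpen (p ⁻¹' (D \ {p y})ᶜ) :=
      ((hD.subset sdiff_subset).isClosed.isOpen_compl).preimage hp.continuous
    refine ⟨U ∩ p ⁻¹' (D \ {p y})ᶜ, hU.inter h3, ?_⟩
    ext z
    simp only [mem_inter_iff, mem_preimage, mem_compl_iff, mem_sdiff, mem_singleton_iff, not_and,
      not_not]
    constructor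
    · rintro ⟨⟨h4, h5⟩, -, h6⟩
      exact hUinj h4 hyU (h5 h6)
    · rintro rfl
      exact ⟨⟨hyU, fun _ => rfl⟩, hyH, hy⟩
  have hinf : ∀ N : ℕ, N ≤ hfin.toFinset.card := by
    intro N
    obtain ⟨Z, tZ, q, hq, z₀, S, h3, h4, h5⟩ := h2 N
    obtain ⟨S', h6, h7⟩ := exists_finset hp hq (y₀ := y₀) (z₀ := z₀) (by rw [hy₀, h3]) D S h5
    rw [← h6] at h4
    refine h4.trans (Finset.card_le_card fun y hy => ?_)
    rw [Set.Finite.mem_toFinset]
    exact ⟨(h7 y hy).1.mem_hull hO, (h7 y hy).2⟩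
  have := hinf (hfin.toFinset.card + 1)
  omega

end main

end Vale.Agent.P300.H527
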